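import Vale.Agent.P070.ZFC.Excision
import Vale.Agent.P070.Density

/-!
Section 1.2: a vector state of an irreducible representation is the only state equal to `1` on the
elements `1 - b* b` with `b ξ = 0`; countably many witnesses suffice for countably many elements.
-/

open InnerProductSpace ComplexOrder

universe u v

namespace Vale.Agent.P070.ZFC

variable {A : Type u} [CStarAlgebra A]
variable {H : Type u} [NormedAddCommGroup H] [InnerProductSpace ℂ H] [CompleteSpace H]
variable (π : A →⋆ₐ[ℂ] (H →L[ℂ] H))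

/-- The representation as a non-unital one. -/
noncomputable abbrev nuRep : Rep A H := π.toNonUnitalStarAlgHom

variable {π}

lemma exists_exact (hπ : IsIrreducibleRep (nuRep π)) {ξ : H} (hξ : ‖ξ‖ = 1) (y : H) :
    ∃ c : A, π c ξ = y ∧ ‖c‖ ≤ 2 * ‖y‖ := by
  let _ := CStarAlgebra.spectralOrder A
  have := CStarAlgebra.spectralOrderedRing A
  have step : ∀ z : H, ∃ c : A, ‖c‖ ≤ ‖z‖ ∧ ‖π c ξ - z‖ ≤ ‖z‖ / 2 := by
    intro z
    rcases eq_or_ne z 0 with rfl | hz
    · exact ⟨0, by simp, by simp⟩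
    have hnz : (0 : ℝ) < ‖z‖ := norm_pos_iff.2 hz
    obtain ⟨c, hc, hcz⟩ := exists_contraction_near hπ hξ (y := ((‖z‖⁻¹ : ℝ) : ℂ) • z)
      (le_of_eq (by rw [norm_smul, Complex.norm_real, norm_inv, norm_norm, inv_mul_cancel₀ hnz.ne']))
      one_half_pos
    refine ⟨((‖z‖ : ℝ) : ℂ) • c, ?_, ?_⟩
    · rw [norm_smul, Complex.norm_real, norm_norm]
      exact mul_le_of_le_one_right hnz.le hc
    · have e : π (((‖z‖ : ℝ) : ℂ) • c) ξ - z
          = ((‖z‖ : ℝ) : ℂ) • (π c ξ - ((‖z‖⁻¹ : ℝ) : ℂ) • z) := by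
        rw [map_smul, smul_apply, smul_sub, smul_smul, ← Complex.ofReal_mul,
          mul_inv_cancel₀ hnz.ne', Complex.ofReal_one, one_smul]
      rw [e, norm_smul, Complex.norm_real, norm_norm]
      calc ‖z‖ * _ ≤ ‖z‖ * (1 / 2) := mul_le_mul_of_nonneg_left hcz hnz.le
        _ = ‖z‖ / 2 := by ring
  choose g hg1 hg2 using step
  let r : ℕ → H := fun n => Nat.rec y (fun _ z => z - π (g z) ξ) n
  have hr : ∀ n, r (n + 1) = r n - π (g (r n)) ξ := fun _ => rfl
  have hrn : ∀ n, ‖r n‖ ≤ ‖y‖ * (1 / 2) ^ n := fun n => by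
    induction n with
    | zero => simp [r]
    | succ n ih =>
      rw [hr, norm_sub_rev]
      refine (hg2 _).trans ?_
      rw [pow_succ]
      linarith
  have hgeo : Summable fun n : ℕ => ‖y‖ * (1 / 2 : ℝ) ^ n := summable_geometric_two.mul_left _
  have hb : ∀ n, ‖g (r n)‖ ≤ ‖y‖ * (1 / 2) ^ n := fun n => (hg1 _).trans (hrn n)
  have hs : Summable fun n => g (r n) := hgeo.of_norm_bounded hb
  refine ⟨∑' n, g (r n), ?_, ?_⟩
  · let L : A →L[ℂ] H := LinearMap.mkContinuous
      { toFun := fun a => π a ξ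
        map_add' := fun a b => by simp
        map_smul' := fun z a => by simp } ‖ξ‖ fun a => by
      rw [mul_comm]; exact norm_rep_le π a ξ
    have hL : ∀ a, L a = π a ξ := fun _ => rfl
    rw [← hL, L.map_tsum hs]
    refine HasSum.tsum_eq ((Summable.hasSum_iff_tendsto_nat (L.summable hs)).2 ?_)
    have e : ∀ n, ∑ i ∈ Finset.range n, L (g (r i)) = y - r n := fun n => by
      induction n with
      | zero => simp [r]
      | succ n ih => rw [Finset.sum_range_succ, ih, hr, hL]; abel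
    simp only [e]
    have h0 : Filter.Tendsto r Filter.atTop (nhds 0) :=
      squeeze_zero_norm hrn (by simpa using hgeo.tendsto_atTop_zero)
    simpa using tendsto_const_nhds.sub h0
  · exact (tsum_of_norm_bounded (f := fun n => g (r n)) (hasSum_geometric_two.mul_left ‖y‖) hb).trans
      (le_of_eq (mul_comm _ _))

/-- A state killing the left kernel of an irreducible vector state is that vector state. -/
theorem state_eq_of_kills (hπ : IsIrreducibleRep (nuRep π)) {ξ : H} (hξ : ‖ξ‖ = 1) {ω : A → ℂ}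
    (hω : IsState ω) (h : ∀ b : A, ‖b‖ ≤ 1 → π b ξ = 0 → ω (star b * b) = 0) (x : A) :
    ω x = ⟪ξ, π x ξ⟫_ℂ := by
  let _ := CStarAlgebra.spectralOrder A
  have := CStarAlgebra.spectralOrderedRing A
  have hk : ∀ b : A, π b ξ = 0 → ω (star b * b) = 0 := by
    intro b hb
    rcases eq_or_ne b 0 with rfl | hb0
    · simp [hω.map_zero]
    have hnb : (0 : ℝ) < ‖b‖ := norm_pos_iff.2 hb0
    set t : ℂ := ((‖b‖⁻¹ : ℝ) : ℂ) with ht
    have h' := h (t • b) (le_of_eq (by
        rw [ht, norm_smul, Complex.norm_real, norm_inv, norm_norm, inv_mul_cancel₀ hnb.ne']))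
      (by rw [map_smul, smul_apply, hb, smul_zero])
    rw [star_smul, smul_mul_assoc, mul_smul_comm, hω.map_smul, hω.map_smul, ← mul_assoc,
      mul_eq_zero] at h'
    refine h'.resolve_left ?_
    simp [ht, hnb.ne']
  have hwd : ∀ a a' b b' : A, π a ξ = π a' ξ → π b ξ = π b' ξ →
      ω (star a * b) = ω (star a' * b') := by
    intro a a' b b' ha hb
    have h1 : π (a - a') ξ = 0 := by rw [map_sub, sub_apply, ha, sub_self]
    have h2 : π (b - b') ξ = 0 := by rw [map_sub, sub_apply, hb, sub_self]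
    have e1 := hω.mul_eq_zero_of_left (hk _ h1) b
    have e2 := hω.mul_eq_zero_of_right (hk _ h2) (star a')
    rw [star_sub, sub_mul, hω.map_sub, sub_eq_zero] at e1
    rw [mul_sub, hω.map_sub, sub_eq_zero] at e2
    rw [e1, e2]
  choose c hc hcn using exists_exact hπ hξ
  let B₀ : H →ₗ⋆[ℂ] H →ₗ[ℂ] ℂ := LinearMap.mk₂'ₛₗ (starRingEnd ℂ) (RingHom.id ℂ)
    (fun u w => ω (star (c u) * c w))
    (fun u u' w => by
      rw [hwd (c (u + u')) (c u + c u') (c w) (c w) (by simp [hc]) rfl, star_add, add_mul,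
        hω.map_add])
    (fun z u w => by
      rw [hwd (c (z • u)) (z • c u) (c w) (c w) (by simp [hc]) rfl, star_smul, smul_mul_assoc,
        hω.map_smul]
      rfl)
    (fun u w w' => by
      rw [hwd (c u) (c u) (c (w + w')) (c w + c w') rfl (by simp [hc]), mul_add, hω.map_add])
    (fun z u w => by
      rw [hwd (c u) (c u) (c (z • w)) (z • c w) rfl (by simp [hc]), mul_smul_comm, hω.map_smul]
      rfl)
  have hB₀ : ∀ u w, ‖B₀ u w‖ ≤ 4 * ‖u‖ * ‖w‖ := fun u w => by
    refine ((hω.norm_le _).trans (norm_mul_le _ _)).trans ?_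
    rw [norm_star]
    calc ‖c u‖ * ‖c w‖ ≤ (2 * ‖u‖) * (2 * ‖w‖) :=
          mul_le_mul (hcn u) (hcn w) (norm_nonneg _) (by positivity)
      _ = 4 * ‖u‖ * ‖w‖ := by ring
  set S : H →L[ℂ] H := continuousLinearMapOfBilin (𝕜 := ℂ) (B₀.mkContinuous₂ 4 hB₀) with hS
  have hSu : ∀ a b : A, ⟪S (π a ξ), π b ξ⟫_ℂ = ω (star a * b) := fun a b => by
    rw [hS, continuousLinearMapOfBilin_apply]
    exact hwd _ _ _ _ (hc _) (hc _)
  have hmul : ∀ a b : A, π a (π b ξ) = π (a * b) ξ := fun a b => by rw [map_mul]; rfl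
  have hcomm : ∀ a, nuRep π a * S = S * nuRep π a := by
    intro a
    refine ContinuousLinearMap.ext fun u => ext_inner_right ℂ fun w => ?_
    show ⟪π a (S u), w⟫_ℂ = ⟪S (π a u), w⟫_ℂ
    obtain ⟨b, rfl⟩ := (⟨c u, hc u⟩ : ∃ b, π b ξ = u)
    obtain ⟨b', rfl⟩ := (⟨c w, hc w⟩ : ∃ b, π b ξ = w)
    rw [hmul, hSu]
    nth_rw 1 [← star_star a]
    rw [rep_inner, hmul, hSu, star_mul, mul_assoc]
  obtain ⟨t, ht⟩ := schur hπ hcomm
  have h1 : ω x = starRingEnd ℂ t * ⟪ξ, π x ξ⟫_ℂ := by
    have := hSu 1 x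
    rw [star_one, one_mul, map_one, ht, smul_apply, one_apply_eq_self,
      inner_smul_left] at this
    exact this.symm
  have h2 : starRingEnd ℂ t = 1 := by
    have := hSu 1 1
    rw [star_one, one_mul, map_one, ht, smul_apply, one_apply_eq_self,
      inner_smul_left, hω.map_one, inner_self_eq_norm_sq_to_K] at this
    simpa [hξ] using this
  rw [h1, h2, one_mul]

/-- A state equal to `1` at a positive contraction only sees the compression by it. -/
lemma norm_sub_le_of_witness [PartialOrder A] [StarOrderedRing A] {ω : A → ℂ} (hω : IsState ω)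
    {a : A} (ha : 0 ≤ a) (ha1 : a ≤ 1) (h : ω a = 1) (x : A) (z : ℂ) :
    ‖ω x - z‖ ≤ ‖a * (x - z • 1) * a‖ := by
  refine le_trans (le_of_eq ?_) (hω.norm_le _)
  rw [(hω.map_mul_of_eq_one ha ha1 h (a * (x - z • 1))).2,
    (hω.map_mul_of_eq_one ha ha1 h (x - z • 1)).1, hω.map_sub, hω.map_smul, hω.map_one, mul_one]

lemma conj_le [PartialOrder A] [StarOrderedRing A] {k : A} (hk : IsSelfAdjoint k) {F : ℝ → ℝ}
    (hF : Continuous F) {δ : ℝ} (h : ∀ s ∈ spectrum ℝ k, F s * s * F s ≤ δ * (F s * F s)) :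
    cfc F k * k * cfc F k ≤ δ • (cfc F k * cfc F k) := by
  have h1 : cfc F k * k = cfc (fun s => F s * s) k :=
    ((cfc_mul F (fun s => s) k hF.continuousOn continuousOn_id).trans (by rw [cfc_id' ℝ k hk])).symm
  have h2 : cfc F k * k * cfc F k = cfc (fun s => F s * s * F s) k := by
    rw [h1]
    exact (cfc_mul (fun s => F s * s) F k (hF.mul continuous_id).continuousOn hF.continuousOn).symm
  have h3 : δ • (cfc F k * cfc F k) = cfc (fun s => δ * (F s * F s)) k := by
    rw [← cfc_mul F F k hF.continuousOn hF.continuousOn]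
    exact (cfc_const_mul δ (fun s => F s * F s) k (hF.mul hF).continuousOn).symm
  rw [h2, h3]
  exact cfc_mono h ((hF.mul continuous_id).mul hF).continuousOn
    (continuous_const.mul (hF.mul hF)).continuousOn

/-- For every element and tolerance there is a witness: a positive contraction fixing `ξ` which
compresses the element to its value in the vector state. -/
theorem exists_witness [PartialOrder A] [StarOrderedRing A] (hπ : IsIrreducibleRep (nuRep π))
    {ξ : H} (hξ : ‖ξ‖ = 1) (x : A) {ε : ℝ} (hε : 0 < ε) :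
    ∃ a : A, 0 ≤ a ∧ a ≤ 1 ∧ π a ξ = ξ ∧ ‖a * (x - ⟪ξ, π x ξ⟫_ℂ • 1) * a‖ ≤ ε := by
  classical
  set z := ⟪ξ, π x ξ⟫_ℂ with hz
  set ι := {b : A // ‖b‖ ≤ 1 ∧ π b ξ = 0}
  set K : Set (A → ℂ) := {f | IsState f} ∩ {f | ε / 4 ≤ ‖f x - z‖} with hK
  have hKc : IsCompact K := isCompact_states.inter_right (isClosed_le continuous_const (by fun_prop))
  obtain ⟨F, hF⟩ := hKc.elim_finite_subfamily_closed
    (fun b : ι => {f : A → ℂ | f (star b.1 * b.1) = 0})
    (fun b => isClosed_eq (by fun_prop) continuous_const) (by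
      refine Set.eq_empty_of_forall_notMem fun f ⟨hf, hI⟩ => ?_
      have := hf.2
      simp only [Set.mem_iInter, Set.mem_ofPred_eq] at hI this
      rw [state_eq_of_kills hπ hξ hf.1 (fun b hb hb0 => hI ⟨b, hb, hb0⟩) x, ← hz, sub_self,
        norm_zero] at this
      linarith)
  set sb : A := ∑ b ∈ F, star b.1 * b.1 with hsb
  obtain ⟨m, hm0, hm⟩ : ∃ m : ℝ, 0 < m ∧ ∀ f ∈ K, m ≤ (f sb).re := by
    rcases K.eq_empty_or_nonempty with h | h
    · exact ⟨1, one_pos, by simp [h]⟩
    obtain ⟨f, hf, hmin⟩ := hKc.exists_isMinOn h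
      (f := fun g : A → ℂ => (g sb).re) (by fun_prop : Continuous _).continuousOn
    refine ⟨(f sb).re, ?_, fun g hg => hmin hg⟩
    by_contra hle
    have hzero : (f sb).re = ∑ b ∈ F, (f (star b.1 * b.1)).re := by
      rw [hsb, hf.1.map_sum, Complex.re_sum]
    have h0 := (Finset.sum_eq_zero_iff_of_nonneg fun b _ => hf.1.re_nonneg b.1).1
      (le_antisymm (hzero ▸ not_lt.1 hle) (Finset.sum_nonneg fun b _ => hf.1.re_nonneg b.1))
    refine (Set.eq_empty_iff_forall_notMem.1 hF f) ⟨hf, ?_⟩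
    simp only [Set.mem_iInter, Set.mem_ofPred_eq]
    intro b hb
    rw [← hf.1.ofReal_re_star_mul, h0 b hb, Complex.ofReal_zero]
  set N : ℝ := (F.card : ℝ) + 1 with hN
  have hN0 : 0 < N := by positivity
  set k : A := (N⁻¹ : ℝ) • sb with hk
  have hk0 : 0 ≤ k := smul_nonneg (by positivity) (Finset.sum_nonneg fun b _ => star_mul_self_nonneg _)
  set δ : ℝ := m / (2 * N) with hδ
  have hδ0 : 0 < δ := by positivity
  set g : ℝ → ℝ := fun s => (max δ s)⁻¹ with hg
  have hgc : Continuous g := by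
    exact (continuous_const.max continuous_id).inv₀ fun s => (hδ0.trans_le (le_max_left _ _)).ne'
  set a : A := cfc (fun s => 1 - g s * s) k with ha
  have hks : IsSelfAdjoint k := .of_nonneg hk0
  have hspec : ∀ s ∈ spectrum ℝ k, 0 ≤ s := fun s hs => spectrum_nonneg_of_nonneg hk0 hs
  have hbnd : ∀ s ∈ spectrum ℝ k, 0 ≤ 1 - g s * s ∧ 1 - g s * s ≤ 1 := fun s hs => by
    have := hspec s hs
    have hpos : 0 < max δ s := hδ0.trans_le (le_max_left _ _)
    have h1 : g s * s ≤ 1 := by
      rw [hg, inv_mul_le_iff₀ hpos, mul_one]; exact le_max_right _ _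
    have h2 : 0 ≤ g s * s := by positivity
    constructor <;> linarith
  have ha0 : 0 ≤ a := cfc_nonneg fun s hs => (hbnd s hs).1
  have ha1 : a ≤ 1 := cfc_le_one _ _ fun s hs => (hbnd s hs).2
  have haeq : a = 1 - cfc g k * k := by
    rw [ha, cfc_sub _ _ k (by fun_prop) (by fun_prop), cfc_const_one ℝ k,
      cfc_mul _ _ k (by fun_prop) (by fun_prop), cfc_id' ℝ k hks]
  have hsbξ : π sb ξ = 0 := by
    rw [hsb, map_sum, sum_apply]
    refine Finset.sum_eq_zero fun b _ => ?_
    rw [map_mul]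
    show π (star b.1) (π b.1 ξ) = 0
    rw [b.2.2, map_zero]
  have hkξ : π k ξ = 0 := by
    rw [hk, ← Complex.coe_smul, map_smul, smul_apply, hsbξ, smul_zero]
  refine ⟨a, ha0, ha1, ?_, ?_⟩
  · rw [haeq, map_sub, map_one, map_mul, sub_apply, one_apply_eq_self]
    show ξ - π (cfc g k) (π k ξ) = ξ
    rw [hkξ, map_zero, sub_zero]
  have has : star a = a := (IsSelfAdjoint.of_nonneg ha0).star_eq
  have hb := norm_conj_le_of_states (k := a) (y := x - z • 1) (r := ε / 4) (by positivity)
    fun f hf hne => by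
      have hs := hf.isState_compress hne
      rw [hs.map_sub, hs.map_smul, hs.map_one, mul_one]
      by_contra hgt
      have hsmall : (compress f a k).re ≤ δ := by
        have hle : a * k * a ≤ (δ : ℝ) • (a * a) := by
          refine conj_le hks (by fun_prop) fun s hs' => ?_
          obtain ⟨h1, -⟩ := hbnd s hs'
          rcases le_total s δ with h | h
          · nlinarith [mul_nonneg h1 h1]
          · have : g s * s = 1 := by
              rw [hg]; simp only; rw [max_eq_right h, inv_mul_cancel₀ (hδ0.trans_le h).ne']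
            rw [this]; simp
        have h := hf.mono hle
        rw [← Complex.coe_smul, hf.map_smul, Complex.re_ofReal_mul] at h
        have hne' : 0 < (f (star a * a)).re := lt_of_le_of_ne (hf.re_nonneg a) fun e => hne (by
          rw [← hf.ofReal_re_star_mul, ← e, Complex.ofReal_zero])
        rw [compress, ← hf.ofReal_re_star_mul a, Complex.div_ofReal_re, div_le_iff₀ hne', has]
        exact h
      have hmem := hm _ ⟨hs, (not_le.1 hgt).le⟩
      rw [hk, ← Complex.coe_smul, hs.map_smul, Complex.re_ofReal_mul, inv_mul_le_iff₀ hN0, hδ]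
        at hsmall
      have : N * (m / (2 * N)) = m / 2 := by field_simp
      linarith
  rw [has] at hb
  refine hb.trans ?_
  have hna : ‖a‖ ≤ 1 := (CStarAlgebra.norm_le_one_iff_of_nonneg a ha0).2 ha1
  nlinarith [norm_nonneg a, mul_le_mul hna hna (norm_nonneg a) zero_le_one]

end Vale.Agent.P070.ZFC
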