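import Vale.Agent.P070.ZFC.Proj
import Vale.Agent.P070.ZFC.Witness

/-!
Section 1.3: excising sequences of projections from countably many witnesses, never stationary.
-/

open Filter Topology ComplexOrder InnerProductSpace

universe u v

namespace Vale.Agent.P070.ZFC

variable {C : Type u} [CStarAlgebra C]

/-- The ramp which is `1` up to `t / 2` and `0` from `t` on. -/
noncomputable def ramp2 (t : ℝ) : ℝ → ℝ := fun s => max 0 (min 1 (2 - 2 * s / t))

lemma continuous_ramp2 (t : ℝ) : Continuous (ramp2 t) := by unfold ramp2; fun_prop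

lemma ramp2_eq_one {t s : ℝ} (ht : 0 < t) (h : s ≤ t / 2) : ramp2 t s = 1 := by
  have : 1 ≤ 2 - 2 * s / t := by
    have : 2 * s / t ≤ 1 := by rw [div_le_one ht]; linarith
    linarith
  simp [ramp2, this]

lemma ramp2_eq_zero {t s : ℝ} (ht : 0 < t) (h : t ≤ s) : ramp2 t s = 0 := by
  have : 2 ≤ 2 * s / t := by rw [le_div_iff₀ ht]; linarith
  refine max_eq_left ((min_le_right _ _).trans ?_)
  linarith

lemma ramp2_le_one (t s : ℝ) : ramp2 t s ≤ 1 := max_le zero_le_one (min_le_left _ _)

lemma ramp2_nonneg (t s : ℝ) : 0 ≤ ramp2 t s := le_max_left _ _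

/-- A functional calculus equation between products. -/
lemma cfc_mul_eq {F G E : ℝ → ℝ} (hF : Continuous F) (hG : Continuous G) (k : C)
    (h : ∀ s ∈ spectrum ℝ k, F s * G s = E s) : cfc F k * cfc G k = cfc E k := by
  rw [← cfc_mul F G k hF.continuousOn hG.continuousOn]
  exact cfc_congr h

/-- A minimal projection makes a purely infinite algebra scalar. -/
lemma IsPI.scalar_of_minimal (hC : IsPI C) {e : C} (he : IsStarProjection e) (he0 : e ≠ 0)
    (h : ∀ z, ∃ c : ℂ, e * z * e = c • e) : ∀ z : C, ∃ c : ℂ, z = c • 1 := by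
  obtain ⟨x, hx⟩ := hC.exists_isometry he0
  have h1 : star x * e * x = 1 := by
    have : star (e * x) * (e * x) = star x * e * x := by
      rw [star_mul, he.isSelfAdjoint.star_eq, mul_assoc, ← mul_assoc e e, he.isIdempotentElem.eq,
        ← mul_assoc]
    rw [← this, hx]
  intro z
  obtain ⟨c, hc⟩ := h (x * z * star x)
  refine ⟨c, ?_⟩
  calc z = star x * e * x * z * (star x * e * x) := by rw [h1, one_mul, mul_one]
    _ = star x * (e * (x * z * star x) * e) * x := by simp only [mul_assoc]
    _ = c • 1 := by rw [hc, mul_smul_comm, smul_mul_assoc, h1]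

variable [PartialOrder C] [StarOrderedRing C]

/-- If a nonnegative element `k` has a state vanishing at it which is the only one, and `C` is not
scalar, then the spectrum of `k` accumulates at `0`. -/
lemma exists_mem_spectrum (hC : IsPI C) (hns : ∃ x : C, ∀ z : ℂ, x ≠ z • 1) {k : C} (hk : 0 ≤ k)
    {φ : C → ℂ} (hφ : IsState φ) (hφk : φ k = 0)
    (huniq : ∀ ω, IsState ω → ω k = 0 → ω = φ) {t : ℝ} (ht : 0 < t) :
    ∃ s ∈ spectrum ℝ k, 0 < s ∧ s < t := by
  by_contra hcon
  push Not at hcon
  have hks : IsSelfAdjoint k := .of_nonneg hk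
  have hs0 : ∀ s ∈ spectrum ℝ k, 0 ≤ s := fun s hs => spectrum_nonneg_of_nonneg hk hs
  have hsplit : ∀ s ∈ spectrum ℝ k, s = 0 ∨ t ≤ s := fun s hs =>
    (hs0 s hs).eq_or_lt.elim (fun h => Or.inl h.symm) fun h => Or.inr (hcon s hs h)
  set e := cfc (ramp2 t) k with he
  have hval : ∀ s ∈ spectrum ℝ k, ramp2 t s * ramp2 t s = ramp2 t s := fun s hs => by
    rcases hsplit s hs with rfl | h
    · simp [ramp2_eq_one ht (by positivity)]
    · simp [ramp2_eq_zero ht h]
  have hep : IsStarProjection e :=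
    ⟨(cfc_mul_eq (continuous_ramp2 t) (continuous_ramp2 t) k hval), cfc_predicate (ramp2 t) k⟩
  have hek : e * k = 0 := by
    conv_lhs => arg 2; rw [← cfc_id' ℝ k hks]
    rw [he, cfc_mul_eq (continuous_ramp2 t) continuous_id' k (E := fun _ => 0) fun s hs => ?_,
      cfc_const_zero]
    rcases hsplit s hs with rfl | h
    · simp
    · simp [ramp2_eq_zero ht h]
  have hφe : φ e = 1 := by
    have hle : 1 - e ≤ t⁻¹ • k := by
      conv_rhs => arg 2; rw [← cfc_id' ℝ k hks]
      rw [he, ← cfc_const_one ℝ k, ← cfc_sub _ _ k (by fun_prop) (continuous_ramp2 t).continuousOn,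
        ← cfc_smul _ _ k (by fun_prop)]
      refine cfc_mono (fun s hs => ?_) ((continuous_const.sub (continuous_ramp2 t)).continuousOn)
        (by fun_prop)
      rcases hsplit s hs with rfl | h
      · simp [ramp2_eq_one ht (show (0:ℝ) ≤ t / 2 by positivity)]
      · rw [ramp2_eq_zero ht h, sub_zero, smul_eq_mul, inv_mul_eq_div, le_div_iff₀ ht, one_mul]
        exact h
    have h1 := hφ.mono hle
    rw [← Complex.coe_smul, hφ.map_smul, hφk, mul_zero, Complex.zero_re, hφ.map_sub, hφ.map_one,
      Complex.sub_re, Complex.one_re] at h1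
    have h2 := hφ.mono hep.le_one
    rw [hφ.map_one, Complex.one_re] at h2
    exact Complex.ext (by simp; linarith) (by simp [hφ.im_eq_zero hep.isSelfAdjoint])
  have he0 : e ≠ 0 := fun h => by simp [h, hφ.map_zero] at hφe
  have : Nontrivial C := hC.1
  let p : ℕ → C := fun n => if n = 0 then 1 else e
  have hp : IsProjSeq p := by
    refine ⟨rfl, fun n => ?_, fun n => ?_, fun n => ?_⟩
    · rcases n with _ | n <;> simp [p, hep, IsStarProjection.one]
    · rcases n with _ | n <;> simp [p, he0]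
    · rcases n with _ | n <;> simp [p, hep.isIdempotentElem.eq]
  have hex := excises_of_unique hp fun ω hω h1 => huniq ω hω (by
    rw [← (hω.map_mul_of_proj hep (by simpa [p] using h1 1) k).1, hek, hω.map_zero])
  obtain ⟨x, hx⟩ := hns
  have hmin : ∀ z, ∃ c : ℂ, e * z * e = c • e := fun z => ⟨φ z, sub_eq_zero.1 (norm_le_zero_iff.1
    (ge_of_tendsto (hex.2 z) ((eventually_ge_atTop 1).mono fun n hn => by
      simp [p, show n ≠ 0 by omega])))⟩
  obtain ⟨c, hc⟩ := hC.scalar_of_minimal hep he0 hmin x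
  exact hx c hc

omit [PartialOrder C] [StarOrderedRing C] in
/-- An excising sequence in a nonscalar purely infinite algebra has a strictly decreasing
subsequence. -/
lemma Excises.exists_strict (hC : IsPI C) (hns : ∃ x : C, ∀ z : ℂ, x ≠ z • 1) {p : ℕ → C}
    {χ : C → ℂ} (he : Excises p χ) :
    ∃ q : ℕ → C, Excises q χ ∧ ∀ n, q (n + 1) ≠ q n := by
  have hnc : ∀ m, ∃ n, m < n ∧ p n ≠ p m := by
    by_contra hcon
    push Not at hcon
    obtain ⟨m, hm⟩ := hcon
    have hmin : ∀ z, ∃ c : ℂ, p m * z * p m = c • p m := fun z => ⟨χ z, sub_eq_zero.1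
      (norm_le_zero_iff.1 (ge_of_tendsto (he.2 z)
        ((eventually_gt_atTop m).mono fun n hn => by rw [hm n hn])))⟩
    obtain ⟨x, hx⟩ := hns
    obtain ⟨c, hc⟩ := hC.scalar_of_minimal (he.1.proj m) (he.1.ne_zero m) hmin x
    exact hx c hc
  choose g hg1 hg2 using hnc
  let k : ℕ → ℕ := fun n => Nat.rec 0 (fun _ m => g m) n
  have hk : StrictMono k := strictMono_nat_of_lt_succ fun n => hg1 (k n)
  refine ⟨fun n => p (k n), ⟨⟨?_, fun n => he.1.proj _, fun n => he.1.ne_zero _,
    fun n => he.1.mul_le (hk n.lt_succ_self).le⟩, fun x => (he.2 x).comp hk.tendsto_atTop⟩,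
    fun n => hg2 (k n)⟩
  exact he.1.zero

/-- A state which is the only one vanishing at a nonnegative element is excised. -/
theorem exists_excised_of_unique (hC : IsPI C) (hns : ∃ x : C, ∀ z : ℂ, x ≠ z • 1) {k : C}
    (hk : 0 ≤ k) {φ : C → ℂ} (hφ : IsState φ) (hφk : φ k = 0)
    (huniq : ∀ ω, IsState ω → ω k = 0 → ω = φ) :
    ∃ p : ℕ → C, Excises p φ ∧ ∀ n, p (n + 1) ≠ p n := by
  have hks : IsSelfAdjoint k := .of_nonneg hk
  have : Nontrivial C := hC.1
  have hstep : ∀ t : ℝ, 0 < t → ∃ s, s ∈ spectrum ℝ k ∧ 0 < s ∧ s < t / 3 := fun t ht =>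
    exists_mem_spectrum hC hns hk hφ hφk huniq (by positivity)
  choose! σ hσm hσ0 hσt using hstep
  let T : ℕ → ℝ := fun n => Nat.rec 1 (fun _ t => σ t / 8) n
  have hT : ∀ n, 0 < T n := fun n => by
    induction n with
    | zero => exact one_pos
    | succ n ih => exact div_pos (hσ0 _ ih) (by norm_num)
  have hTs : ∀ n, T (n + 1) = σ (T n) / 8 := fun _ => rfl
  have hTlim : Tendsto T atTop (𝓝 0) := by
    refine squeeze_zero (fun n => (hT n).le) (fun n => ?_)
      (tendsto_pow_atTop_nhds_zero_of_lt_one (r := (1 / 2 : ℝ)) (by norm_num) (by norm_num))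
    induction n with
    | zero => simp [T]
    | succ n ih =>
      rw [hTs, pow_succ]
      linarith [hσt _ (hT n), hσ0 _ (hT n)]
  set F : ℕ → C := fun n => cfc (ramp2 (T n)) k with hF
  let bump : ℝ → ℝ → ℝ := fun s r => max 0 (1 - 2 * |r - s| / s)
  have hbump : ∀ s, Continuous (bump s) := fun s => by fun_prop
  have hroom : ∀ n, ∃ p : C, IsStarProjection p ∧ F n * p = p ∧ p * F (n + 1) = F (n + 1) := by
    intro n
    set s := σ (T n) with hs
    have hs0 : 0 < s := hσ0 _ (hT n)
    have hst : s < T n / 3 := hσt _ (hT n)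
    have hsupp : ∀ r, bump s r ≠ 0 → s / 2 < r ∧ r < 3 * s / 2 := fun r hr => by
      by_contra hcon
      refine hr (max_eq_left ?_)
      have h2 : 1 ≤ 2 * |r - s| / s := by
        rw [le_div_iff₀ hs0, one_mul]
        rcases not_and_or.1 hcon with h | h <;> push Not at h
        · rw [abs_of_nonpos (by linarith)]; linarith
        · rw [abs_of_nonneg (by linarith)]; linarith
      linarith
    have hb0 : cfc (bump s) k ≠ 0 := fun h => by
      have := norm_apply_le_norm_cfc (bump s) k (hσm _ (hT n)) (hbump s).continuousOn hks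
      rw [h, norm_zero, ← hs] at this
      simp [bump] at this
      linarith
    obtain ⟨p, hp, hfp, hpg⟩ := exists_proj_between hC (f := F n) (f1 := cfc (ramp2 (s / 4)) k)
      (cfc_predicate _ k) (cfc_predicate _ k) hb0
      (by
        rw [cfc_mul_eq (continuous_ramp2 _) (hbump s) k (E := fun _ => 0) fun r _ => ?_,
          cfc_const_zero]
        by_cases hr : bump s r = 0
        · simp [hr]
        · rw [ramp2_eq_zero (by positivity) (by linarith [(hsupp r hr).1]), zero_mul])
      (cfc_mul_eq (continuous_ramp2 _) (hbump s) k fun r _ => by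
        by_cases hr : bump s r = 0
        · simp [hr]
        · rw [ramp2_eq_one (hT n) (by linarith [(hsupp r hr).2]), one_mul])
      (cfc_mul_eq (continuous_ramp2 _) (continuous_ramp2 _) k fun r _ => by
        rcases le_total r (s / 4) with h | h
        · rw [ramp2_eq_one (hT n) (by linarith), one_mul]
        · rw [ramp2_eq_zero (by positivity) h, mul_zero])
      (norm_cfc_le zero_le_one fun r _ => by
        rw [Real.norm_eq_abs, abs_of_nonneg (ramp2_nonneg _ _)]; exact ramp2_le_one _ _)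
    refine ⟨p, hp, hfp, hpg _ ?_⟩
    simp only [hF, hTs, ← hs]
    refine cfc_mul_eq (continuous_ramp2 _) (continuous_ramp2 _) k fun r _ => ?_
    rcases le_total r (s / 8) with h | h
    · rw [ramp2_eq_one (by positivity : (0:ℝ) < s / 4) (by linarith), one_mul]
    · rw [ramp2_eq_zero (by positivity) h, mul_zero]
  choose P hP hFP hPF using hroom
  have hF0 : ∀ n, F n ≠ 0 := fun n h => by
    have := norm_apply_le_norm_cfc (ramp2 (T n)) k (hσm _ (hT n)) (continuous_ramp2 _).continuousOn hks
    simp only [hF] at h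
    rw [h, norm_zero, ramp2_eq_one (hT n) (by linarith [hσt _ (hT n), hT n]), norm_one] at this
    linarith
  let p : ℕ → C := fun n => match n with
    | 0 => 1
    | n + 1 => P n
  have hp : IsProjSeq p := by
    refine ⟨rfl, fun n => ?_, fun n => ?_, fun n => ?_⟩
    · cases n
      · exact IsStarProjection.one C
      · exact hP _
    · cases n with
      | zero => exact one_ne_zero
      | succ n => intro h; exact hF0 (n + 1) (by rw [← hPF n, show P n = 0 from h, zero_mul])
    · cases n with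
      | zero => exact mul_one _
      | succ n =>
        show P (n + 1) * P n = P (n + 1)
        have h : P n * P (n + 1) = P (n + 1) := by rw [← hFP (n + 1), ← mul_assoc, hPF]
        simpa [(hP n).isSelfAdjoint.star_eq, (hP (n + 1)).isSelfAdjoint.star_eq] using congrArg star h
  obtain ⟨q, hq, hq'⟩ := Excises.exists_strict hC hns (excises_of_unique hp fun ω hω h1 => huniq ω hω (by
    have hle : ∀ n, (ω k).re ≤ T n := fun n => by
      have hP1 : ω (P n) = 1 := h1 (n + 1)
      have hF1 : ω (F n) = 1 := by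
        rw [← (hω.map_mul_of_proj (hP n) hP1 (F n)).2, hFP, hP1]
      have hFpos : 0 ≤ F n := cfc_nonneg fun r _ => ramp2_nonneg _ _
      have hFone : F n ≤ 1 := cfc_le_one _ _ fun r _ => ramp2_le_one _ _
      rw [← (hω.map_mul_of_eq_one hFpos hFone hF1 k).1]
      have hFk : F n * k ≤ algebraMap ℝ C (T n) := by
        conv_lhs => arg 2; rw [← cfc_id' ℝ k hks]
        rw [hF, cfc_mul_eq (continuous_ramp2 _) continuous_id' k
          (E := fun r => ramp2 (T n) r * r) fun r _ => rfl]
        refine cfc_le_algebraMap _ _ k (fun r hr => ?_)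
          ((continuous_ramp2 (T n)).mul continuous_id').continuousOn
        have hr0 := spectrum_nonneg_of_nonneg hk hr
        rcases le_total r (T n) with h | h
        · exact (mul_le_of_le_one_left hr0 (ramp2_le_one _ _)).trans h
        · rw [ramp2_eq_zero (hT n) h, zero_mul]; exact (hT n).le
      refine (hω.mono hFk).trans_eq ?_
      rw [Algebra.algebraMap_eq_smul_one, ← Complex.coe_smul, hω.map_smul, hω.map_one, mul_one,
        Complex.ofReal_re]
    refine Complex.ext (le_antisymm ?_ ?_) (hω.im_eq_zero hks)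
    · exact ge_of_tendsto hTlim (Eventually.of_forall hle)
    · exact (Complex.le_def.1 (hω.nonneg_of_nonneg hk)).1))
  exact ⟨q, hq, hq'⟩

/-- Countably many witnesses which determine the state give an excising sequence. -/
theorem exists_excised_of_witnesses (hC : IsPI C) (hns : ∃ x : C, ∀ z : ℂ, x ≠ z • 1) (a : ℕ → C)
    (ha0 : ∀ j, 0 ≤ a j) (ha1 : ∀ j, a j ≤ 1) {φ : C → ℂ} (hφ : IsState φ)
    (hφa : ∀ j, φ (a j) = 1) (huniq : ∀ ω, IsState ω → (∀ j, ω (a j) = 1) → ω = φ) :
    ∃ p : ℕ → C, Excises p φ ∧ ∀ n, p (n + 1) ≠ p n := by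
  have : Nontrivial C := hC.1
  set w : ℕ → C := fun j => ((1 / 2 : ℝ) ^ j) • (1 - a j) with hw
  have hw0 : ∀ j, 0 ≤ w j := fun j => smul_nonneg (by positivity) (sub_nonneg.2 (ha1 j))
  have hsum : Summable w := summable_geometric_two.of_norm_bounded fun j => by
    have h1 : ‖1 - a j‖ ≤ 1 := (CStarAlgebra.norm_le_one_iff_of_nonneg _ (sub_nonneg.2 (ha1 j))).2
      (sub_le_self _ (ha0 j))
    rw [hw, norm_smul, Real.norm_of_nonneg (by positivity)]
    exact mul_le_of_le_one_right (by positivity) h1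
  set k := ∑' j, w j with hk
  have hk0 : 0 ≤ k := tsum_nonneg hw0
  refine exists_excised_of_unique hC hns hk0 hφ ?_ fun ω hω h0 => huniq ω hω fun j => ?_
  · let L : C →L[ℂ] ℂ := LinearMap.mkContinuous hφ.toLinearMap 1 fun a => by
      rw [one_mul]; exact hφ.norm_le a
    have hL : ∀ a, L a = φ a := fun _ => rfl
    rw [← hL, hk, L.map_tsum hsum]
    simp only [hL, hw, ← Complex.coe_smul, hφ.map_smul, hφ.map_sub, hφ.map_one, hφa, sub_self,
      mul_zero, tsum_zero]
  · have h1 := hω.mono (hsum.le_tsum j fun i _ => hw0 i)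
    rw [← hk, h0] at h1
    simp only [hw] at h1
    rw [← Complex.coe_smul, hω.map_smul, Complex.re_ofReal_mul, hω.map_sub, hω.map_one,
      Complex.sub_re, Complex.one_re, Complex.zero_re] at h1
    have h2 := hω.mono (ha1 j)
    rw [hω.map_one, Complex.one_re] at h2
    have h3 : (0 : ℝ) < (1 / 2) ^ j := by positivity
    exact Complex.ext (by simp; nlinarith) (by simp [hω.im_eq_zero (IsSelfAdjoint.of_nonneg (ha0 j))])

section Vector

variable {A : Type u} [CStarAlgebra A] [PartialOrder A] [StarOrderedRing A]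
  {H : Type u} [NormedAddCommGroup H] [InnerProductSpace ℂ H] [CompleteSpace H]
  {π : A →⋆ₐ[ℂ] (H →L[ℂ] H)}

/-- A subalgebra containing the witnesses of a dense sequence of itself has the vector state
excised. -/
theorem exists_excised_vector (hC : IsPI C) (hns : ∃ x : C, ∀ z : ℂ, x ≠ z • 1) {ξ : H}
    (hξ : ‖ξ‖ = 1) (ι : C →⋆ₐ[ℂ] A) (hι : Function.Injective ι) {x : ℕ → C}
    (hx : DenseRange x) (a : ℕ → ℕ → C) (ha : ∀ j m, 0 ≤ a j m ∧ a j m ≤ 1 ∧
      π (ι (a j m)) ξ = ξ ∧
      ‖ι (a j m) * (ι (x j) - ⟪ξ, π (ι (x j)) ξ⟫_ℂ • 1) * ι (a j m)‖ ≤ 1 / (m + 1)) :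
    ∃ p : ℕ → C, Excises p (fun c => ⟪ξ, π (ι c) ξ⟫_ℂ) ∧ ∀ n, p (n + 1) ≠ p n := by
  set φ : C → ℂ := fun c => ⟪ξ, π (ι c) ξ⟫_ℂ with hφd
  have hφ : IsState φ :=
    { map_add := fun c d => by simp [φ, map_add]
      map_smul := fun z c => by simp [φ, map_smul]
      map_one := by simp [φ, map_one, inner_self_eq_norm_sq_to_K, hξ]
      nonneg := fun c => by
        simp only [φ, map_mul, map_star]
        show 0 ≤ ⟪ξ, star (π (ι c)) (π (ι c) ξ)⟫_ℂ
        rw [ContinuousLinearMap.star_eq_adjoint, ContinuousLinearMap.adjoint_inner_right,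
          inner_self_eq_norm_sq_to_K]
        exact pow_nonneg (RCLike.ofReal_nonneg.2 (norm_nonneg _)) 2 }
  let e : ℕ → ℕ × ℕ := Nat.unpair
  refine exists_excised_of_witnesses hC hns (fun n => a (e n).1 (e n).2)
    (fun n => (ha _ _).1) (fun n => (ha _ _).2.1) hφ (fun n => ?_) fun ω hω h1 => ?_
  · show ⟪ξ, π (ι (a (e n).1 (e n).2)) ξ⟫_ℂ = 1
    rw [(ha _ _).2.2.1, inner_self_eq_norm_sq_to_K, hξ]; simp
  · have hj : ∀ j, ω (x j) = φ (x j) := fun j => by
      refine sub_eq_zero.1 (norm_le_zero_iff.1 (le_of_forall_pos_le_add fun ε hε => ?_))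
      obtain ⟨m, hm⟩ := exists_nat_one_div_lt hε
      have h2 : ω (a j m) = 1 := by simpa [e] using h1 (Nat.pair j m)
      have h3 := norm_sub_le_of_witness hω (ha j m).1 (ha j m).2.1 h2 (x j) (φ (x j))
      rw [← NonUnitalStarAlgHom.norm_map ι hι (a j m * (x j - φ (x j) • 1) * a j m), map_mul, map_mul,
        map_sub, map_smul, map_one] at h3
      linarith [h3.trans (ha j m).2.2.2]
    have hcont : ∀ {f : C → ℂ}, IsState f → Continuous f := fun {f} hf =>
      (LinearMap.mkContinuous hf.toLinearMap 1 fun c => by rw [one_mul]; exact hf.norm_le c).continuous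
    exact hx.equalizer (hcont hω) (hcont hφ) (funext hj)

end Vector

end Vale.Agent.P070.ZFC
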