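import Vale.Agent.P070.ZFC.Basic
import Vale.Agent.P070.States

/-!
States on unital C*-algebras: Cauchy-Schwarz, norm, compression, compactness, separation.
-/

open Filter Topology ComplexOrder

universe u

namespace Vale.Agent.P070.ZFC

variable {A : Type u} [CStarAlgebra A]

/-- The compression of a functional by an element. -/
noncomputable def compress (f : A → ℂ) (k : A) : A → ℂ :=
  fun y => f (star k * y * k) / f (star k * k)

namespace IsState

variable {f : A → ℂ} (hf : IsState f)
include hf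

lemma map_zero : f 0 = 0 := by
  simpa using hf.map_smul 0 0

lemma map_neg (a : A) : f (-a) = -f a := by
  rw [← neg_one_smul ℂ a, hf.map_smul, neg_one_mul]

lemma map_sub (a b : A) : f (a - b) = f a - f b := by
  rw [sub_eq_add_neg, hf.map_add, hf.map_neg, ← sub_eq_add_neg]

/-- A state as a linear map. -/
def toLinearMap : A →ₗ[ℂ] ℂ where
  toFun := f
  map_add' := hf.map_add
  map_smul' := hf.map_smul

lemma map_sum {ι : Type*} (s : Finset ι) (a : ι → A) : f (∑ i ∈ s, a i) = ∑ i ∈ s, f (a i) :=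
  _root_.map_sum hf.toLinearMap a s

lemma nonneg_of_nonneg [PartialOrder A] [StarOrderedRing A] {a : A} (ha : 0 ≤ a) : 0 ≤ f a := by
  obtain ⟨c, rfl⟩ := CStarAlgebra.nonneg_iff_eq_star_mul_self.1 ha
  exact hf.nonneg c

/-- A state as a positive linear map, for the spectral order. -/
noncomputable def toPositive [PartialOrder A] [StarOrderedRing A] : A →ₚ[ℂ] ℂ :=
  PositiveLinearMap.mk₀ hf.toLinearMap fun _ h => hf.nonneg_of_nonneg h

lemma mono [PartialOrder A] [StarOrderedRing A] {a b : A} (h : a ≤ b) : (f a).re ≤ (f b).re :=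
  (Complex.le_def.1 (OrderHomClass.mono hf.toPositive h)).1

lemma mem_qstates [PartialOrder A] [StarOrderedRing A] : f ∈ qstates A := by
  refine ⟨hf.map_add, hf.map_smul, fun a => hf.nonneg_of_nonneg, fun a => ?_⟩
  set F := hf.toPositive
  have hF : ∀ x, F x = f x := fun _ => rfl
  have h := norm_inner_le_norm (𝕜 := ℂ) (F.toPreGNS 1) (F.toPreGNS a)
  simp only [PositiveLinearMap.preGNS_inner_def, PositiveLinearMap.preGNS_norm_def,
    PositiveLinearMap.ofPreGNS_toPreGNS, star_one, one_mul, mul_one, hF, hf.map_one,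
    Complex.one_re, Real.sqrt_one] at h
  refine h.trans (Real.sqrt_le_iff.2 ⟨norm_nonneg a, ?_⟩)
  have h' := hf.mono (CStarAlgebra.star_mul_le_algebraMap_norm_sq (a := a))
  rwa [Algebra.algebraMap_eq_smul_one, ← Complex.coe_smul, hf.map_smul, hf.map_one, mul_one,
    Complex.ofReal_re] at h'

lemma norm_le (a : A) : ‖f a‖ ≤ ‖a‖ :=
  let _ := CStarAlgebra.spectralOrder A
  let _ := CStarAlgebra.spectralOrderedRing A
  hf.mem_qstates.2.2.2 a

lemma re_le (a : A) : (f a).re ≤ ‖a‖ :=
  (Complex.re_le_norm _).trans (hf.norm_le a)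

lemma map_star (a : A) : f (star a) = starRingEnd ℂ (f a) :=
  let _ := CStarAlgebra.spectralOrder A
  let _ := CStarAlgebra.spectralOrderedRing A
  StarHomClass.map_star hf.toPositive a

lemma im_eq_zero {a : A} (ha : IsSelfAdjoint a) : (f a).im = 0 := by
  have h := hf.map_star a
  rw [ha.star_eq] at h
  exact Complex.conj_eq_iff_im.1 h.symm

lemma im_star_mul (a : A) : (f (star a * a)).im = 0 :=
  hf.im_eq_zero (.star_mul_self a)

lemma re_nonneg (a : A) : 0 ≤ (f (star a * a)).re :=
  (Complex.le_def.1 (hf.nonneg a)).1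

lemma ofReal_re_star_mul (a : A) : (((f (star a * a)).re : ℝ) : ℂ) = f (star a * a) :=
  Complex.ext rfl (by simp [hf.im_star_mul a])

lemma cs (a b : A) :
    ‖f (star a * b)‖ ≤ √(f (star a * a)).re * √(f (star b * b)).re := by
  let _ := CStarAlgebra.spectralOrder A
  let _ := CStarAlgebra.spectralOrderedRing A
  set F := hf.toPositive
  have hF : ∀ x, F x = f x := fun _ => rfl
  simpa [PositiveLinearMap.preGNS_inner_def, PositiveLinearMap.preGNS_norm_def, hF] using
    norm_inner_le_norm (𝕜 := ℂ) (F.toPreGNS a) (F.toPreGNS b)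

lemma mul_eq_zero_of_left {a : A} (ha : f (star a * a) = 0) (b : A) : f (star a * b) = 0 :=
  norm_le_zero_iff.1 ((hf.cs a b).trans (by simp [ha]))

lemma mul_eq_zero_of_right {b : A} (hb : f (star b * b) = 0) (a : A) : f (a * b) = 0 :=
  norm_le_zero_iff.1 (by simpa [hb] using hf.cs (star a) b)

/-- An element which is `1` in a state can be absorbed. -/
lemma map_mul_of_eq_one [PartialOrder A] [StarOrderedRing A] {e : A} (he : 0 ≤ e) (he1 : e ≤ 1)
    (h : f e = 1) (x : A) : f (e * x) = f x ∧ f (x * e) = f x := by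
  have hd : 0 ≤ 1 - e := sub_nonneg.2 he1
  set r := CFC.sqrt (1 - e) with hr
  have hrr : r * r = 1 - e := CFC.sqrt_mul_sqrt_self _ hd
  have hrs : star r = r := (IsSelfAdjoint.of_nonneg (CFC.sqrt_nonneg _)).star_eq
  have h0 : f (star r * r) = 0 := by rw [hrs, hrr, hf.map_sub, h, hf.map_one, sub_self]
  constructor
  · have := hf.mul_eq_zero_of_left h0 (r * x)
    rwa [hrs, ← mul_assoc, hrr, sub_mul, one_mul, hf.map_sub, sub_eq_zero, eq_comm] at this
  · have := hf.mul_eq_zero_of_right h0 (x * r)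
    rwa [mul_assoc, hrr, mul_sub, mul_one, hf.map_sub, sub_eq_zero, eq_comm] at this

lemma map_mul_of_proj {p : A} (hp : IsStarProjection p) (h : f p = 1) (x : A) :
    f (p * x) = f x ∧ f (x * p) = f x :=
  let _ := CStarAlgebra.spectralOrder A
  let _ := CStarAlgebra.spectralOrderedRing A
  hf.map_mul_of_eq_one hp.nonneg hp.le_one h x

lemma map_conj_of_proj {p : A} (hp : IsStarProjection p) (h : f p = 1) (x : A) :
    f (p * x * p) = f x := by
  rw [(hf.map_mul_of_proj hp h (p * x)).2, (hf.map_mul_of_proj hp h x).1]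

lemma isState_compress {k : A} (hk : f (star k * k) ≠ 0) : IsState (compress f k) where
  map_add a b := by simp [compress, mul_add, add_mul, hf.map_add, add_div]
  map_smul z a := by simp [compress, hf.map_smul, mul_div_assoc]
  map_one := by simp [compress, div_self hk]
  nonneg a := by
    have h := hf.re_nonneg (a * k)
    have h2 := hf.re_nonneg k
    rw [compress, show star k * (star a * a) * k = star (a * k) * (a * k) by
        simp [star_mul, mul_assoc], ← hf.ofReal_re_star_mul, ← hf.ofReal_re_star_mul k,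
      ← Complex.ofReal_div]
    exact Complex.zero_le_real.2 (div_nonneg h h2)

lemma norm_conj_le {k y : A} {r : ℝ} (hr : 0 ≤ r)
    (h : f (star k * k) ≠ 0 → ‖compress f k y‖ ≤ r) :
    ‖f (star k * y * k)‖ ≤ r * ‖k‖ ^ 2 := by
  by_cases h0 : f (star k * k) = 0
  · rw [hf.mul_eq_zero_of_right h0, norm_zero]
    positivity
  have h1 := h h0
  rw [compress, norm_div, div_le_iff₀ (norm_pos_iff.2 h0)] at h1
  refine h1.trans (mul_le_mul_of_nonneg_left ((hf.norm_le _).trans_eq ?_) hr)
  rw [CStarRing.norm_star_mul_self, sq]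

end IsState

/-- A character-like functional which is a limit of states is a state. -/
lemma isClosed_states : IsClosed {f : A → ℂ | IsState f} := by
  have : {f : A → ℂ | IsState f} = ((⋂ (a : A) (b : A), {f | f (a + b) = f a + f b}) ∩
      (⋂ (z : ℂ) (a : A), {f | f (z • a) = z * f a}) ∩ {f | f 1 = 1}) ∩
      ⋂ a : A, {f | 0 ≤ f (star a * a)} := by
    ext f
    simp only [Set.mem_inter_iff, Set.mem_iInter, Set.mem_ofPred_eq]
    exact ⟨fun h => ⟨⟨⟨h.1, h.2⟩, h.3⟩, h.4⟩, fun h => ⟨h.1.1.1, h.1.1.2, h.1.2, h.2⟩⟩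
  rw [this]
  refine IsClosed.inter (((isClosed_iInter fun a => isClosed_iInter fun b =>
    isClosed_eq (by fun_prop) (by fun_prop)).inter (isClosed_iInter fun z => isClosed_iInter fun a =>
    isClosed_eq (by fun_prop) (by fun_prop))).inter (isClosed_eq (by fun_prop) continuous_const)) ?_
  exact isClosed_iInter fun a => isClosed_le continuous_const (by fun_prop)

lemma isCompact_states : IsCompact {f : A → ℂ | IsState f} :=
  (isCompact_univ_pi fun a : A => isCompact_closedBall (0 : ℂ) ‖a‖).of_isClosed_subset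
    isClosed_states fun f hf a _ => by simpa using hf.norm_le a

lemma exists_state_pos [PartialOrder A] [StarOrderedRing A] {b : A} (hb : 0 ≤ b) (hb0 : b ≠ 0) :
    ∃ f : A → ℂ, IsState f ∧ 0 < (f b).re := by
  obtain ⟨f, hf, hfb⟩ := exists_qstate_pos hb hb0
  have hle : (f b).re ≤ (f 1).re * ‖b‖ := by
    have h : f b ≤ f (algebraMap ℝ A ‖b‖) :=
      OrderHomClass.mono (qMap f hf) (IsSelfAdjoint.of_nonneg hb).le_algebraMap_norm_self
    rw [Algebra.algebraMap_eq_smul_one, ← Complex.coe_smul, hf.2.1] at h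
    refine (Complex.le_def.1 h).1.trans_eq ?_
    simp [mul_comm]
  obtain ⟨h1, h1i⟩ := Complex.le_def.1 (hf.2.2.1 1 zero_le_one)
  simp only [Complex.zero_re, Complex.zero_im] at h1 h1i
  have h1p : 0 < (f 1).re := by
    rcases h1.lt_or_eq with h | h
    · exact h
    · rw [← h] at hle; linarith [zero_mul ‖b‖]
  have hC : f 1 = ((f 1).re : ℂ) := Complex.ext rfl (by simp [← h1i])
  refine ⟨fun a => f a / f 1, ⟨fun a c => by simp [hf.1, add_div],
    fun z a => by simp [hf.2.1, mul_div_assoc], div_self ?_, fun a => ?_⟩, ?_⟩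
  · rw [hC]; exact_mod_cast h1p.ne'
  · obtain ⟨h2, h2i⟩ := Complex.le_def.1 (hf.2.2.1 _ (star_mul_self_nonneg a))
    simp only [Complex.zero_re, Complex.zero_im] at h2 h2i
    rw [hC, Complex.le_def, Complex.div_ofReal_re, Complex.div_ofReal_im, ← h2i]
    simp [div_nonneg h2 h1]
  · show 0 < (f b / f 1).re
    rw [hC, Complex.div_ofReal_re]
    exact div_pos hfb h1p

lemma exists_state [Nontrivial A] : ∃ f : A → ℂ, IsState f :=
  let _ := CStarAlgebra.spectralOrder A
  let _ := CStarAlgebra.spectralOrderedRing A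
  (exists_state_pos zero_le_one one_ne_zero).imp fun _ h => h.1

/-- A nonzero projection has a state equal to `1` on it. -/
lemma exists_state_proj {p : A} (hp : IsStarProjection p) (hp0 : p ≠ 0) :
    ∃ f : A → ℂ, IsState f ∧ f p = 1 := by
  let _ := CStarAlgebra.spectralOrder A
  have := CStarAlgebra.spectralOrderedRing A
  obtain ⟨f, hf, hfp⟩ := exists_state_pos hp.nonneg hp0
  have hpp : star p * p = p := by rw [hp.isSelfAdjoint.star_eq, hp.isIdempotentElem.eq]
  have hne : f (star p * p) ≠ 0 := by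
    rw [hpp]; intro h; rw [h] at hfp; simp at hfp
  refine ⟨compress f p, hf.isState_compress hne, ?_⟩
  rw [compress, mul_assoc, hp.isIdempotentElem.eq, hpp]
  rw [hpp] at hne
  exact div_self hne

lemma le_of_states [PartialOrder A] [StarOrderedRing A] {a : A} (ha : IsSelfAdjoint a) {r : ℝ}
    (h : ∀ f : A → ℂ, IsState f → (f a).re ≤ r) : a ≤ algebraMap ℝ A r := by
  set k : A := (algebraMap ℝ A r - a)⁻ with hk
  set b : A := algebraMap ℝ A r - a with hb
  have hbs : IsSelfAdjoint b := (IsSelfAdjoint.algebraMap A (IsSelfAdjoint.all r)).sub ha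
  by_contra hlt
  have hk0 : k ≠ 0 := fun h0 => hlt (sub_nonneg.1 ((CFC.negPart_eq_zero_iff b hbs).1 h0))
  have hks : IsSelfAdjoint k := .of_nonneg (CFC.negPart_nonneg b)
  have hkb : star k * b * k = -(star (k * k) * k) := by
    have h1 : b⁺ - b⁻ = b := CFC.posPart_sub_negPart b hbs
    have h2 : b⁻ * b⁺ = 0 := CFC.negPart_mul_posPart b
    rw [← hk] at h1 h2
    conv_lhs => rw [hks.star_eq, ← h1, mul_sub, h2, zero_sub]
    rw [star_mul, hks.star_eq, neg_mul]
  have hk3 : 0 ≤ k * k * k := hks.conjugate_nonneg (CFC.negPart_nonneg b)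
  have hk30 : k * k * k ≠ 0 := fun h3 => by
    have h4 : star (k * k) * (k * k) = 0 := by rw [star_mul, hks.star_eq, ← mul_assoc, h3, zero_mul]
    have h5 : star k * k = 0 := by rw [hks.star_eq]; exact (CStarRing.star_mul_self_eq_zero_iff _).1 h4
    exact hk0 ((CStarRing.star_mul_self_eq_zero_iff _).1 h5)
  obtain ⟨f, hf, hfk⟩ := exists_state_pos hk3 hk30
  have hne : f (star k * k) ≠ 0 := fun h0 => by
    have := hf.mul_eq_zero_of_right h0 (k * k)
    rw [this] at hfk; simp at hfk
  have hg := h _ (hf.isState_compress hne)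
  have hval : (compress f k b).re < 0 := by
    rw [compress, hkb, hf.map_neg, ← hf.ofReal_re_star_mul k, Complex.div_ofReal_re, star_mul,
      hks.star_eq, Complex.neg_re]
    refine div_neg_of_neg_of_pos (neg_neg_of_pos hfk) ?_
    have h6 := hf.re_nonneg k
    rw [hks.star_eq] at h6 hne
    refine lt_of_le_of_ne h6 fun h0 => hne ?_
    have h7 := hf.ofReal_re_star_mul k
    rw [hks.star_eq, ← h0, Complex.ofReal_zero] at h7
    exact h7.symm
  rw [hb, (hf.isState_compress hne).map_sub, Algebra.algebraMap_eq_smul_one, ← Complex.coe_smul,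
    (hf.isState_compress hne).map_smul, (hf.isState_compress hne).map_one, mul_one, Complex.sub_re,
    Complex.ofReal_re] at hval
  linarith

lemma norm_le_of_states_sa {a : A} (ha : IsSelfAdjoint a) {r : ℝ} (hr : 0 ≤ r)
    (h : ∀ f : A → ℂ, IsState f → |(f a).re| ≤ r) : ‖a‖ ≤ r := by
  let _ := CStarAlgebra.spectralOrder A
  have := CStarAlgebra.spectralOrderedRing A
  have h1 := le_of_states ha fun f hf => (le_abs_self _).trans (h f hf)
  have h2 := le_of_states ha.neg fun f hf => by
    rw [hf.map_neg, Complex.neg_re]; exact (neg_le_abs _).trans (h f hf)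
  rcases subsingleton_or_nontrivial A with hA | hA
  · rw [Subsingleton.elim a 0, norm_zero]; exact hr
  rw [le_algebraMap_iff_spectrum_le ha] at h1
  rw [le_algebraMap_iff_spectrum_le ha.neg] at h2
  refine (congrArg norm (cfc_id' ℝ a ha)).symm.trans_le (norm_cfc_le hr fun x hx => ?_)
  rw [Real.norm_eq_abs, abs_le]
  refine ⟨?_, h1 x hx⟩
  have := h2 (-x) (by rwa [← spectrum.neg_eq, Set.neg_mem_neg])
  linarith

lemma norm_le_two_of_states {a : A} {r : ℝ} (hr : 0 ≤ r)
    (h : ∀ f : A → ℂ, IsState f → ‖f a‖ ≤ r) : ‖a‖ ≤ 2 * r := by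
  have hre : ‖(realPart a : A)‖ ≤ r := norm_le_of_states_sa (realPart a).2 hr fun f hf => by
    have e : (f (realPart a : A)).re = (f a).re := by
      conv_rhs => rw [← realPart_add_I_smul_imaginaryPart a]
      simp [hf.map_add, hf.map_smul, hf.im_eq_zero (imaginaryPart a).2]
    rw [e]
    exact (Complex.abs_re_le_norm _).trans (h f hf)
  have him : ‖(imaginaryPart a : A)‖ ≤ r := norm_le_of_states_sa (imaginaryPart a).2 hr fun f hf => by
    have e : (f (imaginaryPart a : A)).re = (f a).im := by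
      conv_rhs => rw [← realPart_add_I_smul_imaginaryPart a]
      simp [hf.map_add, hf.map_smul, hf.im_eq_zero (realPart a).2]
    rw [e]
    exact (Complex.abs_im_le_norm _).trans (h f hf)
  conv_lhs => rw [← realPart_add_I_smul_imaginaryPart a]
  refine (norm_add_le _ _).trans ?_
  rw [norm_smul, Complex.norm_I, one_mul]
  linarith

/-- States seen through `k` control the corner at `k`. -/
lemma norm_conj_le_of_states {k y : A} {r : ℝ} (hr : 0 ≤ r)
    (h : ∀ f : A → ℂ, IsState f → f (star k * k) ≠ 0 → ‖compress f k y‖ ≤ r) :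
    ‖star k * y * k‖ ≤ 2 * (r * ‖k‖ ^ 2) :=
  norm_le_two_of_states (by positivity) fun f hf => hf.norm_conj_le hr (h f hf)

end Vale.Agent.P070.ZFC
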