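import Vale.Agent.P070.ZFC.States

/-!
Excising sequences of projections: the excised functional is the unique state equal to `1` on the
sequence; fixed vectors in representations; failure of inequivalence gives a common vector.
-/

open Filter Topology ComplexOrder InnerProductSpace

universe u v

namespace Vale.Agent.P070.ZFC

variable {A : Type u} [CStarAlgebra A] {p q : ℕ → A} {χ ψ : A → ℂ}

namespace IsProjSeq

variable (hp : IsProjSeq p)
include hp

lemma star_eq (n : ℕ) : star (p n) = p n := (hp.proj n).isSelfAdjoint.star_eq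

lemma idem (n : ℕ) : p n * p n = p n := (hp.proj n).isIdempotentElem.eq

lemma star_mul_self (n : ℕ) : star (p n) * p n = p n := by rw [hp.star_eq, hp.idem]

lemma mul_le {m n : ℕ} (h : m ≤ n) : p n * p m = p n := by
  induction n, h using Nat.le_induction with
  | base => exact hp.idem m
  | succ n _ ih => rw [← hp.succ n, mul_assoc, ih]

lemma le_mul {m n : ℕ} (h : m ≤ n) : p m * p n = p n := by
  simpa [hp.star_eq] using congrArg star (hp.mul_le h)

lemma norm_eq_one (n : ℕ) : ‖p n‖ = 1 := by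
  have h : ‖p n‖ * ‖p n‖ = ‖p n‖ := by
    conv_rhs => rw [← hp.star_mul_self n, CStarRing.norm_star_mul_self]
  exact (mul_eq_left₀ (norm_ne_zero_iff.2 (hp.ne_zero n))).1 h

lemma eq_one_mono {f : A → ℂ} (hf : IsState f) {m n : ℕ} (h : m ≤ n) (h1 : f (p n) = 1) :
    f (p m) = 1 := by
  rw [← (hf.map_mul_of_proj (hp.proj n) h1 (p m)).1, hp.mul_le h, h1]

lemma exists_state_eq_one : ∃ f : A → ℂ, IsState f ∧ ∀ n, f (p n) = 1 := by
  obtain ⟨f, hf⟩ := IsCompact.nonempty_iInter_of_sequence_nonempty_isCompact_isClosed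
    (fun n => {f : A → ℂ | IsState f} ∩ {f | f (p n) = 1})
    (fun n f hf => ⟨hf.1, hp.eq_one_mono hf.1 n.le_succ hf.2⟩)
    (fun n => exists_state_proj (hp.proj n) (hp.ne_zero n))
    (isCompact_states.inter_right (isClosed_eq (by fun_prop) continuous_const))
    (fun n => isClosed_states.inter (isClosed_eq (by fun_prop) continuous_const))
  rw [Set.mem_iInter] at hf
  exact ⟨f, (hf 0).1, fun n => (hf n).2⟩

lemma map {B : Type v} [CStarAlgebra B] (ι : A →⋆ₐ[ℂ] B) (hι : Function.Injective ι) :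
    IsProjSeq (fun n => ι (p n)) where
  zero := by rw [hp.zero, map_one]
  proj n := (hp.proj n).map ι
  ne_zero n h := hp.ne_zero n (hι (h.trans (map_zero ι).symm))
  succ n := by rw [← map_mul, hp.succ]

end IsProjSeq

lemma norm_sub_eq_of_eq_one {f : A → ℂ} (hf : IsState f) (hp : IsProjSeq p) {n : ℕ}
    (h1 : f (p n) = 1) (x : A) (c : ℂ) : ‖f x - c‖ ≤ ‖p n * x * p n - c • p n‖ := by
  have := hf.norm_le (p n * x * p n - c • p n)
  rwa [hf.map_sub, hf.map_smul, hf.map_conj_of_proj (hp.proj n) h1, h1, mul_one] at this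

namespace Excises

variable (he : Excises p χ)
include he

lemma tendsto_of_eq_one {f : ℕ → A → ℂ} (hf : ∀ n, IsState (f n)) (h1 : ∀ n, f n (p n) = 1) (x : A) :
    Tendsto (fun n => f n x) atTop (𝓝 (χ x)) :=
  tendsto_iff_norm_sub_tendsto_zero.2 (squeeze_zero (fun _ => norm_nonneg _)
    (fun n => norm_sub_eq_of_eq_one (hf n) he.1 (h1 n) x _) (he.2 x))

/-- A state equal to `1` on an excising sequence is the excised functional. -/
lemma unique {f : A → ℂ} (hf : IsState f) (h1 : ∀ n, f (p n) = 1) : f = χ :=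
  funext fun x => tendsto_nhds_unique tendsto_const_nhds
    (he.tendsto_of_eq_one (f := fun _ => f) (fun _ => hf) h1 x)

lemma isState : IsState χ := by
  obtain ⟨f, hf, h1⟩ := he.1.exists_state_eq_one
  exact he.unique hf h1 ▸ hf

lemma apply_eq_one (n : ℕ) : χ (p n) = 1 := by
  obtain ⟨f, hf, h1⟩ := he.1.exists_state_eq_one
  rw [← he.unique hf h1, h1]

lemma eq {χ' : A → ℂ} (he' : Excises p χ') : χ = χ' :=
  (he.unique he'.isState he'.apply_eq_one).symm

lemma tendsto_norm (x : A) : Tendsto (fun n => ‖p n * x * p n‖) atTop (𝓝 ‖χ x‖) := by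
  rw [tendsto_iff_norm_sub_tendsto_zero]
  refine squeeze_zero (fun _ => norm_nonneg _) (fun n => ?_) (he.2 x)
  have h := abs_norm_sub_norm_le (p n * x * p n) (χ x • p n)
  rwa [norm_smul, he.1.norm_eq_one, mul_one, ← Real.norm_eq_abs] at h

lemma tendsto_norm_mul_sq (y : A) :
    Tendsto (fun n => ‖y * p n‖ ^ 2) atTop (𝓝 (χ (star y * y)).re) := by
  have h : ∀ n, p n * (star y * y) * p n = star (y * p n) * (y * p n) := fun n => by
    rw [star_mul, he.1.star_eq]; simp only [mul_assoc]
  have := he.tendsto_norm (star y * y)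
  simp only [h, CStarRing.norm_star_mul_self, ← sq] at this
  rwa [← he.isState.ofReal_re_star_mul, Complex.norm_real,
    Real.norm_of_nonneg (he.isState.re_nonneg _)] at this

end Excises

/-- Uniqueness of the state equal to `1` on the sequence gives excision. -/
theorem excises_of_unique (hp : IsProjSeq p) (h : ∀ f, IsState f → (∀ n, f (p n) = 1) → f = χ) :
    Excises p χ := by
  refine ⟨hp, fun x => Metric.tendsto_atTop.2 fun ε hε => ?_⟩
  simp only [Real.dist_eq, sub_zero, abs_norm]
  by_contra hcon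
  push Not at hcon
  set δ := ε / 4 with hδ
  let K : ℕ → Set (A → ℂ) := fun n =>
    ({f | IsState f} ∩ {f | f (p n) = 1}) ∩ {f | δ ≤ ‖f x - χ x‖}
  have hne : ∀ n, (K n).Nonempty := fun n => by
    obtain ⟨m, hnm, hm⟩ := hcon n
    by_contra hem
    have hle : ‖p m * x * p m - χ x • p m‖ ≤ 2 * (δ * ‖p m‖ ^ 2) := by
      have e : star (p m) * (x - χ x • 1) * p m = p m * x * p m - χ x • p m := by
        rw [hp.star_eq, mul_sub, sub_mul, mul_smul_comm, mul_one, smul_mul_assoc, hp.idem]
      rw [← e]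
      refine norm_conj_le_of_states (by positivity) fun f hf hne' => ?_
      by_contra hgt
      rw [not_le] at hgt
      have hg := hf.isState_compress hne'
      have h1 : compress f (p m) (p m) = 1 := by
        rw [compress, hp.star_mul_self, hp.idem, div_self]
        rwa [hp.star_mul_self] at hne'
      refine hem ⟨compress f (p m), ⟨hg, hp.eq_one_mono hg hnm h1⟩, ?_⟩
      rw [hg.map_sub, hg.map_smul, hg.map_one, mul_one] at hgt
      exact hgt.le
    rw [hp.norm_eq_one, one_pow, mul_one] at hle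
    linarith
  have hcl : ∀ n, IsClosed (K n) := fun n =>
    (isClosed_states.inter (isClosed_eq (by fun_prop) continuous_const)).inter
      (isClosed_le continuous_const (by fun_prop))
  obtain ⟨f, hf⟩ := IsCompact.nonempty_iInter_of_sequence_nonempty_isCompact_isClosed K
    (fun n f hf => ⟨⟨hf.1.1, hp.eq_one_mono hf.1.1 n.le_succ hf.1.2⟩, hf.2⟩) hne
    ((isCompact_states.inter_right (isClosed_eq (by fun_prop) continuous_const)).inter_right
      (isClosed_le continuous_const (by fun_prop))) hcl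
  rw [Set.mem_iInter] at hf
  have := (hf 0).2
  simp only [Set.mem_ofPred_eq, h f (hf 0).1.1 fun n => (hf n).1.2, sub_self, norm_zero] at this
  linarith

lemma Inequiv.symm (h : Inequiv p q) (hp : IsProjSeq p) (hq : IsProjSeq q) : Inequiv q p :=
  fun x => by
    refine (h (star x)).congr fun n => ?_
    rw [← norm_star (q n * star x * p n), star_mul, star_mul, star_star, hp.star_eq, hq.star_eq,
      mul_assoc]

/-- If two excised sequences are not inequivalent, the second meets a translate of the first. -/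
lemma exists_lower_of_not_inequiv (hp : Excises p χ) (hq : IsProjSeq q) (h : ¬ Inequiv p q) :
    ∃ x, ∃ c : ℝ, 0 < c ∧ ∀ m, c ≤ (χ (star x * q m * x)).re := by
  simp only [Inequiv, not_forall] at h
  obtain ⟨x, hx⟩ := h
  refine ⟨x, ?_⟩
  by_contra hcon
  push Not at hcon
  refine hx (Metric.tendsto_atTop.2 fun ε hε => ?_)
  simp only [Real.dist_eq, sub_zero, abs_norm]
  obtain ⟨m, hm⟩ := hcon (ε ^ 2) (by positivity)
  have ht := hp.tendsto_norm_mul_sq (q m * x)
  rw [show star (q m * x) * (q m * x) = star x * q m * x by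
    rw [star_mul, hq.star_eq, mul_assoc, ← mul_assoc (q m), hq.idem, ← mul_assoc]] at ht
  obtain ⟨N, hN⟩ := eventually_atTop.1 (ht.eventually (gt_mem_nhds hm))
  refine ⟨max m N, fun n hn => ?_⟩
  have hle : ‖q n * x * p n‖ ≤ ‖q m * x * p n‖ := by
    rw [← hq.mul_le ((le_max_left m N).trans hn)]
    rw [mul_assoc (q n), mul_assoc (q n)]
    exact (norm_mul_le _ _).trans (by rw [hq.norm_eq_one, one_mul])
  exact hle.trans_lt (lt_of_pow_lt_pow_left₀ 2 hε.le (hN n ((le_max_right m N).trans hn)))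

section Rep

variable {H : Type v} [NormedAddCommGroup H] [InnerProductSpace ℂ H] [CompleteSpace H]
  (π : A →⋆ₐ[ℂ] (H →L[ℂ] H))

lemma rep_inner (a : A) (x y : H) : ⟪π (star a) x, y⟫_ℂ = ⟪x, π a y⟫_ℂ := by
  rw [map_star, ContinuousLinearMap.star_eq_adjoint, ContinuousLinearMap.adjoint_inner_left]

lemma norm_rep_le (a : A) (v : H) : ‖π a v‖ ≤ ‖a‖ * ‖v‖ :=
  le_trans ((π a).le_opNorm v)
    (mul_le_mul_of_nonneg_right (NonUnitalStarAlgHom.norm_apply_le π a) (norm_nonneg v))

/-- The excised sequence compresses to the functional on its fixed vectors. -/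
lemma Excises.inner_eq (he : Excises p χ) {v w : H} (hv : ∀ n, π (p n) v = v)
    (hw : ∀ n, π (p n) w = w) (x : A) : ⟪v, π x w⟫_ℂ = χ x * ⟪v, w⟫_ℂ := by
  refine sub_eq_zero.1 (norm_le_zero_iff.1 (ge_of_tendsto
    (by simpa using ((he.2 x).const_mul ‖v‖).mul_const ‖w‖) (Eventually.of_forall fun n => ?_)))
  have e : ⟪v, π x w⟫_ℂ - χ x * ⟪v, w⟫_ℂ = ⟪v, π (p n * x * p n - χ x • p n) w⟫_ℂ := by
    have e1 : ⟪v, π (p n * x * p n) w⟫_ℂ = ⟪v, π x w⟫_ℂ := by
      rw [map_mul, map_mul]
      show ⟪v, π (p n) (π x (π (p n) w))⟫_ℂ = _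
      rw [hw, ← rep_inner, he.1.star_eq, hv]
    rw [map_sub, sub_apply, inner_sub_right, e1, map_smul, smul_apply, hw, inner_smul_right]
  rw [e]
  refine (norm_inner_le_norm _ _).trans ?_
  exact (mul_le_mul_of_nonneg_left (norm_rep_le π _ _) (norm_nonneg v)).trans_eq
    (mul_assoc _ _ _).symm

lemma Excises.state_of_fixed (he : Excises p χ) {w : H} (h1 : ‖w‖ = 1)
    (hw : ∀ n, π (p n) w = w) (x : A) : ⟪w, π x w⟫_ℂ = χ x := by
  rw [he.inner_eq π hw hw, inner_self_eq_norm_sq_to_K, h1]
  simp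

/-- A unit vector whose state is the excised one is fixed by the sequence. -/
lemma Excises.fixed_of_state (he : Excises p χ) {w : H} (h1 : ‖w‖ = 1)
    (hw : ∀ x, ⟪w, π x w⟫_ℂ = χ x) (n : ℕ) : π (p n) w = w := by
  have e : ⟪π (p n) w, π (p n) w⟫_ℂ = 1 := by
    nth_rw 1 [← he.1.star_eq n]
    rw [rep_inner, ← ContinuousLinearMap.comp_apply, ← ContinuousLinearMap.mul_def, ← map_mul,
      he.1.idem, hw, he.apply_eq_one]
  have e' : ⟪π (p n) w - w, π (p n) w - w⟫_ℂ = 0 := by
    rw [inner_sub_left, inner_sub_right, inner_sub_right, e, hw, he.apply_eq_one,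
      ← inner_conj_symm (π (p n) w) w, hw, he.apply_eq_one, inner_self_eq_norm_sq_to_K, h1]
    simp
  exact sub_eq_zero.1 (inner_self_eq_zero.1 e')

/-- The cyclic space of a fixed vector is irreducible. -/
lemma Excises.irreducible (he : Excises p χ) {w : H} (h1 : ‖w‖ = 1)
    (hw : ∀ n, π (p n) w = w) {M : Submodule ℂ H} (hM : (M : Set H) = closure (Set.range fun a => π a w))
    (N : Submodule ℂ H) (hNM : N ≤ M) (hNc : IsClosed (N : Set H))
    (hNi : ∀ a, ∀ v ∈ N, π a v ∈ N) : N = ⊥ ∨ N = M := by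
  have : CompleteSpace N := hNc.completeSpace_coe
  set Q := N.starProjection with hQ
  have hcomm : ∀ a v, π a (Q v) = Q (π a v) := fun a v => by
    refine (Submodule.eq_starProjection_of_mem_of_inner_eq_zero
      (hNi a _ (N.starProjection_apply_mem v)) fun z hz => ?_).symm
    rw [← map_sub, ← star_star a, rep_inner]
    exact N.starProjection_inner_eq_zero v _ (hNi (star a) z hz)
  have hQw : ∀ n, π (p n) (Q w) = Q w := fun n => by rw [hcomm, hw]
  set c := ⟪w, Q w⟫_ℂ with hc
  have hQc : Q w = c • w := by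
    have hmem : Q w - c • w ∈ M := M.sub_mem (hNM (N.starProjection_apply_mem w))
      (M.smul_mem _ (by
        rw [← SetLike.mem_coe, hM]; exact subset_closure ⟨1, by simp⟩))
    rw [← SetLike.mem_coe, hM] at hmem
    have h0 : ∀ z ∈ closure (Set.range fun a => π a w), ⟪z, Q w - c • w⟫_ℂ = 0 := by
      refine fun z hz => closure_minimal (t := {z | ⟪z, Q w - c • w⟫_ℂ = 0}) ?_
        (isClosed_eq (by fun_prop) continuous_const) hz
      rintro _ ⟨a, rfl⟩
      show ⟪π a w, Q w - c • w⟫_ℂ = 0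
      nth_rw 1 [← star_star a]
      rw [inner_sub_right, inner_smul_right, rep_inner, rep_inner, he.inner_eq π hw hQw,
        he.inner_eq π hw hw, inner_self_eq_norm_sq_to_K, h1]
      simp [← hc, mul_comm]
    exact sub_eq_zero.1 (inner_self_eq_zero.1 (h0 _ hmem))
  rcases eq_or_ne c 0 with h | h
  · refine Or.inl (eq_bot_iff.2 fun v hv => ?_)
    have h0 : ∀ z ∈ closure (Set.range fun a => π a w), Q z = 0 := by
      refine fun z hz => closure_minimal (t := {z | Q z = 0}) ?_
        (isClosed_eq (by fun_prop) continuous_const) hz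
      rintro _ ⟨a, rfl⟩
      show Q (π a w) = 0
      rw [← hcomm, hQc, h, zero_smul, map_zero]
    have hv' := hNM hv
    rw [← SetLike.mem_coe, hM] at hv'
    have := h0 v hv'
    rwa [Submodule.starProjection_eq_self_iff.2 hv] at this
  · refine Or.inr (le_antisymm hNM fun v hv => ?_)
    have hwN : w ∈ N := by
      have : w = c⁻¹ • Q w := by rw [hQc, inv_smul_smul₀ h]
      rw [this]; exact N.smul_mem _ (N.starProjection_apply_mem w)
    rw [← SetLike.mem_coe, hM] at hv
    exact closure_minimal (by rintro _ ⟨a, rfl⟩; exact hNi a w hwN) hNc hv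

/-- Failure of inequivalence gives a nonzero vector fixed by the second sequence. -/
lemma exists_fixed_of_not_inequiv (hp : Excises p χ) (hq : IsProjSeq q) (h : ¬ Inequiv p q) {ξ : H}
    (hξ : ∀ x, ⟪ξ, π x ξ⟫_ℂ = χ x) :
    ∃ w : H, w ≠ 0 ∧ w ∈ closure (Set.range fun a => π a ξ) ∧ ∀ n, π (q n) w = w := by
  obtain ⟨x, c, hc, hcle⟩ := exists_lower_of_not_inequiv hp hq h
  set v : ℕ → H := fun m => π (q m * x) ξ with hv
  have hinner : ∀ m n, m ≤ n → ⟪v m, v n⟫_ℂ = χ (star x * q n * x) := fun m n hmn => by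
    simp only [hv]
    rw [← star_star (q m * x), rep_inner, ← ContinuousLinearMap.comp_apply,
      ← ContinuousLinearMap.mul_def, ← map_mul, hξ, star_mul, hq.star_eq, mul_assoc,
      ← mul_assoc (q m), hq.le_mul hmn, ← mul_assoc]
  set a : ℕ → ℝ := fun m => (χ (star x * q m * x)).re with ha
  have hreal : ∀ m, χ (star x * q m * x) = (a m : ℂ) := fun m => by
    refine Complex.ext rfl ?_
    rw [Complex.ofReal_im]
    refine hp.isState.im_eq_zero ?_
    show star _ = _
    simp [star_mul, hq.star_eq, mul_assoc]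
  have hsq : ∀ m n, m ≤ n → ‖v m - v n‖ ^ 2 = a m - a n := fun m n hmn => by
    have e : ((‖v m - v n‖ ^ 2 : ℝ) : ℂ) = ((a m - a n : ℝ) : ℂ) := by
      have h2 : ((‖v m - v n‖ ^ 2 : ℝ) : ℂ) = ⟪v m - v n, v m - v n⟫_ℂ := by
        rw [inner_self_eq_norm_sq_to_K]; norm_cast
      push_cast at h2 ⊢
      rw [h2, inner_sub_left, inner_sub_right, inner_sub_right,
        ← inner_conj_symm (v n) (v m), hinner m m le_rfl, hinner m n hmn, hinner n n le_rfl,
        hreal m, hreal n, Complex.conj_ofReal]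
      ring
    exact_mod_cast e
  have hanti : Antitone a := fun m n hmn => by nlinarith [hsq m n hmn, sq_nonneg ‖v m - v n‖]
  have hlim := tendsto_atTop_ciInf hanti ⟨0, by rintro _ ⟨m, rfl⟩; exact hc.le.trans (hcle m)⟩
  have hcau : CauchySeq v := by
    refine Metric.cauchySeq_iff'.2 fun ε hε => ?_
    obtain ⟨N, hN⟩ := Metric.tendsto_atTop.1 hlim (ε ^ 2) (by positivity)
    refine ⟨N, fun n hn => ?_⟩
    rw [dist_eq_norm, norm_sub_rev]
    refine lt_of_pow_lt_pow_left₀ 2 hε.le ?_
    rw [hsq N n hn]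
    have h1 := (abs_lt.1 (hN N le_rfl)).2
    have h2 : ⨅ i, a i ≤ a n := ciInf_le ⟨0, by rintro _ ⟨m, rfl⟩; exact hc.le.trans (hcle m)⟩ n
    linarith
  obtain ⟨w, hw⟩ := cauchySeq_tendsto_of_complete hcau
  refine ⟨w, fun h0 => ?_, mem_closure_of_tendsto hw (Eventually.of_forall fun m => ⟨_, rfl⟩), ?_⟩
  · have h1 : Tendsto (fun m => ‖v m‖ ^ 2) atTop (𝓝 0) := by
      simpa [h0] using (hw.norm.pow 2)
    refine absurd (ge_of_tendsto h1 (Eventually.of_forall fun m => ?_)) (not_le.2 hc)
    have e : ((‖v m‖ ^ 2 : ℝ) : ℂ) = (a m : ℂ) := by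
      rw [← hreal, ← hinner m m le_rfl, inner_self_eq_norm_sq_to_K]; norm_cast
    exact (hcle m).trans_eq (by exact_mod_cast e.symm)
  · intro n
    refine tendsto_nhds_unique (((π (q n)).continuous.tendsto w).comp hw) (hw.congr' ?_)
    filter_upwards [eventually_ge_atTop n] with m hm
    simp only [hv, Function.comp_apply]
    rw [← ContinuousLinearMap.comp_apply, ← ContinuousLinearMap.mul_def, ← map_mul, ← mul_assoc,
      hq.le_mul hm]

/-- Two excised vectors with a nonzero matrix coefficient are not inequivalent. -/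
lemma not_inequiv_of_inner {v w : H} (hv : ∀ n, π (q n) v = v) (hw : ∀ n, π (p n) w = w)
    (hq : IsProjSeq q) {x : A} (h : ⟪v, π x w⟫_ℂ ≠ 0) : ¬ Inequiv p q := fun hi => by
  refine h (norm_le_zero_iff.1 (ge_of_tendsto
    (by simpa using ((hi x).const_mul ‖v‖).mul_const ‖w‖) (Eventually.of_forall fun n => ?_)))
  have e : ⟪v, π (q n * x * p n) w⟫_ℂ = ⟪v, π x w⟫_ℂ := by
    rw [map_mul, map_mul]
    show ⟪v, π (q n) (π x (π (p n) w))⟫_ℂ = _
    rw [hw, ← rep_inner, hq.star_eq, hv]
  rw [← e]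
  refine (norm_inner_le_norm _ _).trans ?_
  exact (mul_le_mul_of_nonneg_left (norm_rep_le π _ _) (norm_nonneg v)).trans_eq
    (mul_assoc _ _ _).symm

end Rep

end Vale.Agent.P070.ZFC
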