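import Mathlib

/-!
Vocabulary for the ZFC counterexample to Naimark's problem: pure infiniteness, states, excised
sequences of projections, inequivalence, diffuse states.
-/

open Filter Topology ComplexOrder

namespace Vale.Agent.P070.ZFC

variable {A : Type*} [CStarAlgebra A]

variable (A) in
/-- Every nonzero element can be completed to an isometry from the right. -/
def IsPI : Prop :=
  Nontrivial A ∧ ∀ b : A, b ≠ 0 → ∃ x : A, star (b * x) * (b * x) = 1

/-- A state, as a function. -/
structure IsState (f : A → ℂ) : Prop where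
  map_add : ∀ a b, f (a + b) = f a + f b
  map_smul : ∀ (z : ℂ) a, f (z • a) = z * f a
  map_one : f 1 = 1
  nonneg : ∀ a, 0 ≤ f (star a * a)

/-- A decreasing sequence of nonzero projections starting at `1`. -/
structure IsProjSeq (p : ℕ → A) : Prop where
  zero : p 0 = 1
  proj : ∀ n, IsStarProjection (p n)
  ne_zero : ∀ n, p n ≠ 0
  succ : ∀ n, p (n + 1) * p n = p (n + 1)

/-- The sequence `p` excises the functional `χ`. -/
def Excises (p : ℕ → A) (χ : A → ℂ) : Prop :=
  IsProjSeq p ∧ ∀ x, Tendsto (fun n => ‖p n * x * p n - χ x • p n‖) atTop (𝓝 0)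

/-- Two sequences which excise inequivalent functionals. -/
def Inequiv (p q : ℕ → A) : Prop :=
  ∀ x, Tendsto (fun n => ‖q n * x * p n‖) atTop (𝓝 0)

/-- A state vanishing asymptotically on all translates of excising sequences. -/
def IsDiffuse (μ : A → ℂ) : Prop :=
  IsState μ ∧ ∀ p χ, Excises p χ → ∀ x, Tendsto (fun n => μ (x * p n * star x)) atTop (𝓝 0)

end Vale.Agent.P070.ZFC
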