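import Vale.Agent.P070.ZFC.States

/-!
A projection between two elements of functional calculus, from pure infiniteness (section 1.1).
-/

namespace Vale.Agent.P070.ZFC

variable {C : Type*} [CStarAlgebra C]

lemma IsPI.exists_isometry (hC : IsPI C) {b : C} (hb : b ≠ 0) :
    ∃ x : C, star (b * x) * (b * x) = 1 := hC.2 b hb

/-- If `f * f1 = f1` and there is room `k` below `f` orthogonal to `f1`, then some projection lies
below `f` and fixes everything fixed by `f1`. -/
theorem exists_proj_between (hC : IsPI C) {f f1 k : C} (hf : IsSelfAdjoint f)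
    (hf1 : IsSelfAdjoint f1) (hk0 : k ≠ 0) (hf1k : f1 * k = 0) (hfk : f * k = k)
    (hff1 : f * f1 = f1) (hf1n : ‖f1‖ ≤ 1) :
    ∃ p : C, IsStarProjection p ∧ f * p = p ∧ ∀ g : C, f1 * g = g → p * g = g := by
  let _ := CStarAlgebra.spectralOrder C
  have := CStarAlgebra.spectralOrderedRing C
  rcases subsingleton_or_nontrivial C with _ | _
  · exact absurd (Subsingleton.elim k 0) hk0
  obtain ⟨x, hx⟩ := hC.exists_isometry hk0
  set v := k * x with hv
  have hvv : star v * v = 1 := hx
  have hf1v : f1 * v = 0 := by rw [hv, ← mul_assoc, hf1k, zero_mul]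
  have hvf1 : star v * f1 = 0 := by simpa [hf1.star_eq] using congrArg star hf1v
  have hfv : f * v = v := by rw [hv, ← mul_assoc, hfk]
  have hf1f : f1 * f = f1 := by simpa [hf1.star_eq, hf.star_eq] using congrArg star hff1
  set y := v * f1 with hy
  have hys : star y = f1 * star v := by rw [hy, star_mul, hf1.star_eq]
  set T := y - star y with hT
  have hTs : star T = -T := by rw [hT, star_sub, star_star, neg_sub]
  have hyy : y * y = 0 := by rw [hy, mul_assoc, ← mul_assoc f1, hf1v, zero_mul, mul_zero]
  have hyy' : star y * star y = 0 := by rw [← star_mul, hyy, star_zero]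
  set R := star y * y + y * star y with hR
  have hTT : T * T = -R := by
    rw [hT, hR, sub_mul, mul_sub, mul_sub, hyy, hyy']
    abel
  have hsy : star y * y = f1 * f1 := by
    rw [hys, hy, mul_assoc, ← mul_assoc (star v), hvv, one_mul]
  have hR2 : ‖R‖ ≤ 2 := by
    have h1 : ‖y‖ ≤ 1 := by
      refine (norm_mul_le _ _).trans (mul_le_one₀ ?_ (norm_nonneg _) hf1n)
      have h : ‖v‖ * ‖v‖ = 1 := by rw [← CStarRing.norm_star_mul_self, hvv, norm_one]
      nlinarith [norm_nonneg v]
    rw [hR]
    refine (norm_add_le _ _).trans ?_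
    have h2 := norm_mul_le (star y) y
    have h3 := norm_mul_le y (star y)
    rw [norm_star] at h2 h3
    nlinarith [norm_nonneg y]
  have hRs : IsSelfAdjoint R := (IsSelfAdjoint.star_mul_self y).add (IsSelfAdjoint.mul_star_self y)
  set M := algebraMap ℝ C 2 - R with hM
  have hM0 : 0 ≤ M := sub_nonneg.2 (hRs.le_algebraMap_norm_self.trans
    (by gcongr))
  set d := CFC.sqrt M with hd
  have hdd : d * d = M := CFC.sqrt_mul_sqrt_self M hM0
  have hd0 : 0 ≤ d := CFC.sqrt_nonneg M
  have hds : star d = d := (IsSelfAdjoint.of_nonneg hd0).star_eq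
  have hTM : Commute T M := by
    have hR' : R = -(T * T) := by rw [hTT, neg_neg]
    rw [hM, hR', sub_neg_eq_add]
    exact (Algebra.commute_algebraMap_right 2 T).add_right ((Commute.refl T).mul_right (Commute.refl T))
  have hTd : Commute T d := by
    rw [hd, CFC.sqrt_eq_cfc]
    exact (Commute.cfc_nnreal hTM.symm _).symm
  have hRd : Commute R d := by
    rw [show R = -(T * T) by rw [hTT, neg_neg]]
    exact (hTd.mul_left hTd).neg_left
  set u := (1 - R) + T * d with hu
  have hus : star u = (1 - R) - T * d := by
    rw [hu, star_add, star_sub, star_one, hRs.star_eq, star_mul, hds, hTs, mul_neg, ← hTd.eq,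
      ← sub_eq_add_neg]
  have hTR : Commute (T * d) (1 - R) := by
    refine Commute.sub_right (Commute.one_right _) (Commute.mul_left ?_ hRd.symm)
    rw [show R = -(T * T) by rw [hTT, neg_neg]]
    exact ((Commute.refl T).mul_right (Commute.refl T)).neg_right
  have htt : T * d * (T * d) = -(R * M) := by
    rw [mul_assoc, ← mul_assoc d, ← hTd.eq, mul_assoc T d, hdd, ← mul_assoc, hTT, neg_mul]
  have h2 : algebraMap ℝ C 2 = 1 + 1 := by rw [map_ofNat, one_add_one_eq_two]
  have hdiag : (1 - R) * (1 - R) + R * M = 1 := by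
    rw [hM, h2]; noncomm_ring
  have hgen : ∀ a b : C, Commute b a →
      (a - b) * (a + b) = a * a - b * b ∧ (a + b) * (a - b) = a * a - b * b := fun a b h => by
    constructor <;> simp only [sub_mul, mul_add, add_mul, mul_sub, h.eq] <;> abel
  have huu : star u * u = 1 := by
    rw [hus, hu, (hgen _ _ hTR).1, htt, sub_neg_eq_add, hdiag]
  have huu' : u * star u = 1 := by
    rw [hus, hu, (hgen _ _ hTR).2, htt, sub_neg_eq_add, hdiag]
  refine ⟨star u * (v * star v) * u, ⟨?_, ?_⟩, ?_, fun g hg => ?_⟩
  · show star u * (v * star v) * u * (star u * (v * star v) * u) = _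
    calc _ = star u * v * (star v * (u * star u) * v) * (star v * u) := by noncomm_ring
      _ = _ := by rw [huu', mul_one, hvv]; noncomm_ring
  · show star _ = _
    simp [star_mul, mul_assoc]
  · -- `u` is the identity off the support of `f`
    have hfy : f * y = y := by rw [hy, ← mul_assoc, hfv]
    have hfys : f * star y = star y := by rw [hys, ← mul_assoc, hff1]
    have hfR : f * R = R := by
      rw [hR, mul_add, ← mul_assoc f (star y), hfys, ← mul_assoc f y, hfy]
    have hfT : f * T = T := by rw [hT, mul_sub, hfy, hfys]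
    have hkey : (1 - f) * star u = 1 - f := by
      rw [hus, mul_sub, mul_sub, mul_one, ← mul_assoc (1 - f) T, sub_mul 1 f R, sub_mul 1 f T,
        one_mul, one_mul, hfR, hfT, sub_self, sub_self, zero_mul, sub_zero, sub_zero]
    have h0 : (1 - f) * (star u * (v * star v) * u) = 0 := by
      rw [← mul_assoc, ← mul_assoc, hkey, ← mul_assoc, sub_mul, one_mul, hfv, sub_self, zero_mul,
        zero_mul]
    rw [sub_mul, one_mul, sub_eq_zero] at h0
    exact h0.symm
  · have hg2 : f1 * f1 * g = g := by rw [mul_assoc, hg, hg]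
    have hvg : star v * g = 0 := by rw [← hg, ← mul_assoc, hvf1, zero_mul]
    have hRg : R * g = g := by
      rw [hR, add_mul, hsy, hg2, hys, mul_assoc y, mul_assoc f1, hvg, mul_zero, mul_zero, add_zero]
    have hTg : T * g = v * g := by
      rw [hT, sub_mul, hys, mul_assoc f1, hvg, mul_zero, sub_zero, hy, mul_assoc, hg]
    have hdg : d * g = g := by
      have hMg : M * g = g := by rw [hM, sub_mul, hRg, h2, add_mul, one_mul]; abel
      have hunit : IsUnit (d + 1) := by
        refine CStarAlgebra.isUnit_of_le (1 : C) ?_ (IsStrictlyPositive.iff_of_unital.2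
          ⟨zero_le_one, isUnit_one⟩)
        exact le_add_of_nonneg_left hd0
      have h0 : (d + 1) * (d * g - g) = 0 := by
        calc (d + 1) * (d * g - g) = d * d * g - g := by noncomm_ring
          _ = 0 := by rw [hdd, hMg, sub_self]
      exact sub_eq_zero.1 ((hunit.mul_right_eq_zero).1 h0)
    have hug : u * g = v * g := by
      rw [hu, add_mul, sub_mul, one_mul, hRg, sub_self, zero_add, mul_assoc, hdg, hTg]
    calc star u * (v * star v) * u * g = star u * (v * (star v * (u * g))) := by noncomm_ring
      _ = star u * (u * g) := by rw [hug, ← mul_assoc (star v), hvv, one_mul]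
      _ = g := by rw [← mul_assoc, huu, one_mul]

end Vale.Agent.P070.ZFC
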